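import Vale.Agent.P141.Defs

/-!
# P141, module EXAMPLE: two weighted base 18 configurations

24 pairs `(x, t)` of digits with integer weights, symmetric under `(x, t) ↦ (17 - x, 9 - t)`.
-/

namespace Vale.Agent.P141

/-- the digit pairs -/
def exG : Finset (ℤ × ℤ) :=
  {(0, 0), (1, 1), (2, 2), (3, 1), (3, 3), (4, 2), (5, 3), (6, 2), (6, 4), (7, 3), (7, 5), (8, 4),
   (17, 9), (16, 8), (15, 7), (14, 8), (14, 6), (13, 7), (12, 6), (11, 7), (11, 5), (10, 6),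
   (10, 4), (9, 5)}

/-- the first weight, total 76 -/
def exA (q : ℤ × ℤ) : ℕ :=
  if q = (0, 0) ∨ q = (17, 9) then 3 else
  if q = (1, 1) ∨ q = (16, 8) then 4 else
  if q = (2, 2) ∨ q = (15, 7) then 4 else
  if q = (3, 1) ∨ q = (14, 8) then 2 else
  if q = (3, 3) ∨ q = (14, 6) then 2 else
  if q = (4, 2) ∨ q = (13, 7) then 4 else
  if q = (5, 3) ∨ q = (12, 6) then 5 else
  if q = (6, 2) ∨ q = (11, 7) then 1 else
  if q = (6, 4) ∨ q = (11, 5) then 4 else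
  if q = (7, 3) ∨ q = (10, 6) then 3 else
  if q = (7, 5) ∨ q = (10, 4) then 1 else
  if q = (8, 4) ∨ q = (9, 5) then 5 else 0

/-- the second weight, total 176 -/
def exB (q : ℤ × ℤ) : ℕ :=
  if q = (0, 0) ∨ q = (17, 9) then 5 else
  if q = (1, 1) ∨ q = (16, 8) then 9 else
  if q = (2, 2) ∨ q = (15, 7) then 10 else
  if q = (3, 1) ∨ q = (14, 8) then 3 else
  if q = (3, 3) ∨ q = (14, 6) then 5 else
  if q = (4, 2) ∨ q = (13, 7) then 10 else
  if q = (5, 3) ∨ q = (12, 6) then 13 else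
  if q = (6, 2) ∨ q = (11, 7) then 1 else
  if q = (6, 4) ∨ q = (11, 5) then 10 else
  if q = (7, 3) ∨ q = (10, 6) then 7 else
  if q = (7, 5) ∨ q = (10, 4) then 2 else
  if q = (8, 4) ∨ q = (9, 5) then 13 else 0

/-- natural number counts -/
def cntN (m : ℤ × ℤ → ℕ) (g : ℤ × ℤ → ℤ) (v : ℤ) : ℕ := ∑ q ∈ exG with g q = v, m q

/-- `exp` of the entropy sum -/
def NN (m : ℤ × ℤ → ℕ) (g : ℤ × ℤ → ℤ) : ℕ := ∏ q ∈ exG, cntN m g (g q) ^ m q

/-- `exp` of the pair entropy sum -/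
def NP (m : ℤ × ℤ → ℕ) : ℕ := ∏ q ∈ exG, m q ^ m q

theorem ex_fst : ∀ q ∈ exG, 0 ≤ q.1 ∧ q.1 < 18 := by decide +kernel

theorem ex_lin : ∀ q ∈ exG, |lin 1 q| ≤ 20 ∧ |lin 2 q| ≤ 20 ∧ |lin 3 q| ≤ 20 ∧ |q.2| ≤ 20 := by
  decide +kernel

theorem ex_mod : ∀ s ∈ exG.image Prod.snd, ∀ t ∈ exG.image Prod.snd, (18 : ℤ) ∣ s - t → s = t := by
  decide +kernel

theorem exA_pos : ∀ q ∈ exG, 0 < exA q := by decide +kernel

theorem exA_tot : ∑ q ∈ exG, exA q = 76 := by decide +kernel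

theorem exA_d : NN exA Prod.fst < 18 ^ 76 * NP exA := by decide +kernel

theorem exA_1 : 18 ^ (76 * 4745) * NP exA ^ 4745 * NN exA Prod.fst ^ (10000 - 4745) ≤
    NN exA (lin 1) ^ 10000 := by
  decide +kernel

theorem exA_2 : 18 ^ (76 * 4658) * NP exA ^ 4658 * NN exA Prod.fst ^ (10000 - 4658) ≤
    NN exA (lin 2) ^ 10000 := by
  decide +kernel

theorem exA_3 : 18 ^ (76 * 4429) * NP exA ^ 4429 * NN exA Prod.fst ^ (10000 - 4429) ≤
    NN exA (lin 3) ^ 10000 := by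
  decide +kernel

theorem exB_pos : ∀ q ∈ exG, 0 < exB q := by decide +kernel

theorem exB_tot : ∑ q ∈ exG, exB q = 176 := by decide +kernel

theorem exB_d : NN exB Prod.fst < 18 ^ 176 * NP exB := by decide +kernel

theorem exB_1 : 18 ^ (176 * 4607) * NP exB ^ 4607 * NN exB Prod.fst ^ (10000 - 4607) ≤
    NN exB (lin 1) ^ 10000 := by
  decide +kernel

theorem exB_2 : 18 ^ (176 * 4603) * NP exB ^ 4603 * NN exB Prod.fst ^ (10000 - 4603) ≤
    NN exB (lin 2) ^ 10000 := by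
  decide +kernel

theorem exB_3 : 18 ^ (176 * 4575) * NP exB ^ 4575 * NN exB Prod.fst ^ (10000 - 4575) ≤
    NN exB (lin 3) ^ 10000 := by
  decide +kernel

end Vale.Agent.P141
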